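import Vale.Agent.P040.Mono81.Defs

/-!
# x-monotone Zarankiewicz: basic tools (rows B1 - B12)
See `notes/P040_monotone.md`.
-/

namespace Vale.Agent.P040.Mono81

open Finset Vale.Agent.P040.All Vale.Agent.P040.Lin

variable {k n : ℕ} {a h : ℕ → ℝ} {c b b' : Star}

/-- (B1) copy of `Lin.stk_lt_iff` / `Lin.stK_lt_iff`: unfold `mk`, `mkK`; `ik_lt_iff hx`;
`Prod.Lex.toLex_lt_toLex` twice. -/
lemma mk_lt_iff (B : ℕ → ℕ) (V : ℕ → ℝ) {x y : ℕ} (hx : x < n) :
    mk n B V x < mk n B V y ↔ B x < B y ∨ (B x = B y ∧ (V x < V y ∨ (V x = V y ∧ x < y))) := by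
  unfold mk mkK
  rw [ik_lt_iff hx, Prod.Lex.toLex_lt_toLex, Prod.Lex.toLex_lt_toLex]

/-- (B2) copy of `Lin.inj_stk` / `Lin.stK_inj`. -/
lemma inj_mk (n : ℕ) (B : ℕ → ℕ) (V : ℕ → ℝ) : Inj n (mk n B V) := by
  unfold mk
  refine inj_ik fun x _ y _ e => ?_
  unfold mkK at e
  have e1 := congrArg (fun z => (ofLex (ofLex z).2).2) e
  simpa using e1

/-- (B3) `Finset.lt_inf'_iff`, `abs_pos`, `sub_ne_zero`, `hs.ne`. -/
lemma dl_pos (hs : IsStar k a h c) : 0 < dl k a c := by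
  unfold dl
  refine (Finset.lt_inf'_iff _).2 ?_
  intro x hx
  exact abs_pos.2 (sub_ne_zero.2 (hs.ne x (mem_range.1 hx)))

/-- (B4) `Finset.inf'_le`. -/
lemma dl_le {x : ℕ} (hx : x < 2 * k + 1) : dl k a c ≤ |a x - c.p| := by
  unfold dl
  exact Finset.inf'_le _ (mem_range.2 hx)

/-- (B5) from B3, B4 (`abs_of_pos`). -/
lemma tR_mem (hs : IsStar k a h c) {x : ℕ} (hx : x < 2 * k + 1) (hr : c.p < a x) :
    c.p < tR k a c ∧ tR k a c ≤ a x := by
  have h1 := dl_pos hs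
  have h2 := dl_le (k := k) (a := a) (c := c) hx
  rw [abs_of_pos (by linarith)] at h2
  unfold tR
  constructor <;> linarith

/-- (B6) from B3, B4 (`abs_of_neg`). -/
lemma tL_mem (hs : IsStar k a h c) {x : ℕ} (hx : x < 2 * k + 1) (hr : a x < c.p) :
    a x ≤ tL k a c ∧ tL k a c < c.p := by
  have h1 := dl_pos hs
  have h2 := dl_le (k := k) (a := a) (c := c) hx
  rw [abs_of_neg (by linarith)] at h2
  unfold tL
  constructor <;> linarith

/-- (B7) intermediate value theorem for `φ - ψ` on `[u, v]` (`intermediate_value_Icc`, `intermediate_value_Icc'`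
applied to `fun t => φ t - ψ t`, value `0`). -/
lemma meet_of_sign {φ ψ : ℝ → ℝ} (hφ : Continuous φ) (hψ : Continuous ψ) {u v : ℝ} (huv : u ≤ v)
    (hs : (φ u < ψ u ∧ ψ v < φ v) ∨ (ψ u < φ u ∧ φ v < ψ v)) : ∃ t ∈ Set.Icc u v, φ t = ψ t := by
  sorry

/-- (B8) from B7 by contradiction (`lt_or_gt_of_ne` at `u` and at `v`). -/
lemma sign_const {φ ψ : ℝ → ℝ} (hφ : Continuous φ) (hψ : Continuous ψ) {u v : ℝ} (huv : u ≤ v)
    (hne : ∀ t ∈ Set.Icc u v, φ t ≠ ψ t) : φ u < ψ u ↔ φ v < ψ v := by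
  sorry

/-- (B9) two right-going edges of a star keep their vertical order.  WLOG `t ≤ t'` (`le_total`); B8 on `[t, t']`; a point `s` of
`[t, t']` lies in `uIcc c.p (a x)` and in `uIcc c.p (a x')` (`Set.mem_uIcc`), so `hs.simple` would give `s = c.p`. -/
lemma star_right (hs : IsStar k a h c) {x x' : ℕ} (hx : x < 2 * k + 1) (hx' : x' < 2 * k + 1) (hne : x ≠ x')
    {t t' : ℝ} (h0 : c.p < t) (h1 : t ≤ a x) (h2 : t ≤ a x') (h0' : c.p < t') (h1' : t' ≤ a x) (h2' : t' ≤ a x') :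
    c.f x t < c.f x' t ↔ c.f x t' < c.f x' t' := by
  sorry

/-- (B10) mirror image of B9. -/
lemma star_left (hs : IsStar k a h c) {x x' : ℕ} (hx : x < 2 * k + 1) (hx' : x' < 2 * k + 1) (hne : x ≠ x')
    {t t' : ℝ} (h0 : t < c.p) (h1 : a x ≤ t) (h2 : a x' ≤ t) (h0' : t' < c.p) (h1' : a x ≤ t') (h2' : a x' ≤ t') :
    c.f x t < c.f x' t ↔ c.f x t' < c.f x' t' := by
  sorry

/-- (B11) two edges of a star have different heights over a common abscissa `t ≠ c.p` (`hs.simple`). -/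
lemma star_ne (hs : IsStar k a h c) {x x' : ℕ} (hx : x < 2 * k + 1) (hx' : x' < 2 * k + 1) (hne : x ≠ x')
    {t : ℝ} (h0 : t ≠ c.p) (h1 : t ∈ Set.uIcc c.p (a x)) (h2 : t ∈ Set.uIcc c.p (a x')) :
    c.f x t ≠ c.f x' t := by
  sorry

/-- (B12) the edge `b' x`, `x` left of `b`, does not pass through `b`: otherwise `G.share x` at `t = b.p`
(`b.f x b.p = b.y` by `G.sb.blue`) gives `b.p = a x`. -/
lemma up_ne (G : Gen k a h b b') {x : ℕ} (hx : x < 2 * k + 1) (hL : a x < b.p) : b'.f x b.p ≠ b.y := by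
  sorry

/-- (B13) mirror image of B12. -/
lemma up_ne' (G : Gen k a h b b') {x : ℕ} (hx : x < 2 * k + 1) (hR : b'.p < a x) : b.f x b'.p ≠ b'.y := by
  sorry

/-- (B14) sign change of `b.f z - b'.f z'` on `[u, v]`, where `[u, v]` lies in both intervals, gives a crossing (B7). -/
lemma cr_of_sign (G : Gen k a h b b') {z z' : ℕ} (hz : z < 2 * k + 1) (hz' : z' < 2 * k + 1) {u v : ℝ} (huv : u ≤ v)
    (hu : u ∈ Set.uIcc b.p (a z)) (hv : v ∈ Set.uIcc b.p (a z)) (hu' : u ∈ Set.uIcc b'.p (a z'))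
    (hv' : v ∈ Set.uIcc b'.p (a z'))
    (hs : (b.f z u < b'.f z' u ∧ b'.f z' v < b.f z v) ∨ (b'.f z' u < b.f z u ∧ b.f z v < b'.f z' v)) :
    Cr a b b' z z' := by
  sorry

/-- (B15) telescoping with intermediate points: induction on `N`, `abs_sub_le`. -/
lemma tele (u v : ℕ → ℤ) (N : ℕ) :
    |u N - u 0| ≤ ∑ i ∈ range N, (|u (i + 1) - v i| + |v i - u i|) := by
  sorry

/-- (B16) the same through the point `v r`: split `range N` at `r` (`Finset.sum_range_add_sum_Ico` or induction on `N`), B15 for the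
two parts (for the upper part apply B15 to the shifted sequences). -/
lemma tele_mid (u v : ℕ → ℤ) {N r : ℕ} (hr : r < N) :
    |u N - v r| + |v r - u 0| ≤ ∑ i ∈ range N, (|u (i + 1) - v i| + |v i - u i|) := by
  sorry

end Vale.Agent.P040.Mono81
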