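import Vale.Agent.P040.Lin.Tools
import Vale.Agent.P040.All.Rot
import Vale.Agent.P040.All.Ext
import Vale.Agent.P040.All.Therm
import Vale.Agent.P040.All.Kendall

/-!
# x-monotone drawings of `K_{m,n}`: definitions for the pair inequality

See `notes/P040_monotone.md`.  Reds `0, …, 2k` sorted by abscissa `a`.  A blue vertex with its star is a
`Star`: abscissa `p`, ordinate `y`, and for every red `x` a function `f x` whose graph over the interval between `p` and
`a x` is the edge.
-/

namespace Vale.Agent.P040.Mono81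

open Finset Vale.Agent.P040.All Vale.Agent.P040.Lin

/-- key (block, real value, label) -/
def mkK (B : ℕ → ℕ) (V : ℕ → ℝ) (x : ℕ) : ℕ ×ₗ (ℝ ×ₗ ℕ) := toLex (B x, toLex (V x, x))

/-- integer keys of the arrangement: blocks in increasing order, inside a block by increasing value -/
noncomputable def mk (n : ℕ) (B : ℕ → ℕ) (V : ℕ → ℝ) : ℕ → ℤ := ik n (mkK B V)

/-- a blue vertex with its edges -/
structure Star where
  /-- abscissa -/
  p : ℝ
  /-- ordinate -/
  y : ℝ
  /-- the edge to the red `x` is the graph of `f x` over the interval between `p` and the abscissa of `x` -/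
  f : ℕ → ℝ → ℝ

/-- the star `c` is a simple x-monotone star over the reds `(a x, h x)`, `x ≤ 2k` -/
structure IsStar (k : ℕ) (a h : ℕ → ℝ) (c : Star) : Prop where
  ne : ∀ x < 2 * k + 1, a x ≠ c.p
  cont : ∀ x < 2 * k + 1, Continuous (c.f x)
  blue : ∀ x < 2 * k + 1, c.f x c.p = c.y
  red : ∀ x < 2 * k + 1, c.f x (a x) = h x
  simple : ∀ x < 2 * k + 1, ∀ x' < 2 * k + 1, x ≠ x' → ∀ t, t ∈ Set.uIcc c.p (a x) → t ∈ Set.uIcc c.p (a x') →
    c.f x t = c.f x' t → t = c.p

/-- distance from the abscissa of `c` to the nearest abscissa of a red -/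
noncomputable def dl (k : ℕ) (a : ℕ → ℝ) (c : Star) : ℝ :=
  (range (2 * k + 1)).inf' ⟨0, mem_range.2 (Nat.succ_pos _)⟩ fun x => |a x - c.p|

/-- an abscissa just right of `c` -/
noncomputable def tR (k : ℕ) (a : ℕ → ℝ) (c : Star) : ℝ := c.p + dl k a c
/-- an abscissa just left of `c` -/
noncomputable def tL (k : ℕ) (a : ℕ → ℝ) (c : Star) : ℝ := c.p - dl k a c

/-- blocks of the rotation at `c`: right-going edges, then left-going edges -/
noncomputable def rotB (a : ℕ → ℝ) (c : Star) (x : ℕ) : ℕ := if c.p < a x then 0 else 1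
/-- right-going edges from bottom to top, left-going edges from top to bottom -/
noncomputable def rotV (k : ℕ) (a : ℕ → ℝ) (c : Star) (x : ℕ) : ℝ :=
  if c.p < a x then c.f x (tR k a c) else - c.f x (tL k a c)

/-- the counterclockwise rotation at `c` -/
noncomputable def rotI (k : ℕ) (a : ℕ → ℝ) (c : Star) : ℕ → ℤ := mk (2 * k + 1) (rotB a c) (rotV k a c)

/-- `ξ_x(c) = N_x(π_c) - lo_x` -/
noncomputable def xiM (k : ℕ) (a : ℕ → ℝ) (c : Star) (x : ℕ) : ℕ := NN k (rotI k a c) x - (k - x)

/-- the feature `(x, τ)` of the blue vertex `c` -/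
noncomputable def PhiM (k : ℕ) (a : ℕ → ℝ) (f : ℕ × ℕ) (c : Star) : Bool :=
  if c.p < a f.1 then decide (f.2 < xiM k a c f.1) else decide (wd k f.1 ≤ f.2 + xiM k a c f.1)

/-- the edges `b z` and `b' z'` meet -/
def Cr (a : ℕ → ℝ) (b b' : Star) (z z' : ℕ) : Prop :=
  ∃ t, t ∈ Set.uIcc b.p (a z) ∧ t ∈ Set.uIcc b'.p (a z') ∧ b.f z t = b'.f z' t

open Classical in
/-- number of ordered pairs `(z, z')`, `z ≠ z'`, such that the edges `b z` and `b' z'` meet -/
noncomputable def crM (k : ℕ) (a : ℕ → ℝ) (b b' : Star) : ℕ :=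
  (((range (2 * k + 1)) ×ˢ (range (2 * k + 1))).filter fun z => z.1 ≠ z.2 ∧ Cr a b b' z.1 z.2).card

/-- hypotheses on the reds and a pair of blue vertices, `b` left of `b'` -/
structure Gen (k : ℕ) (a h : ℕ → ℝ) (b b' : Star) : Prop where
  ha : ∀ i j, i < j → j < 2 * k + 1 → a i < a j
  hbb : b.p < b'.p
  sb : IsStar k a h b
  sb' : IsStar k a h b'
  share : ∀ x < 2 * k + 1, ∀ t, t ∈ Set.uIcc b.p (a x) → t ∈ Set.uIcc b'.p (a x) → b.f x t = b'.f x t → t = a x

/-! ## the states of the path from the rotation at `b` to the reversed rotation at `b'`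

`md x = 0`: the red `x` is still listed by the old star, `1`: it is at the junction (vertical direction), `2`: it is
listed by the other star. -/

/-- left phase (reds left of `b`): blocks `0` = reds right of `b` (bottom to top at `b`), `1` = converted reds whose edge from
`b'` passes above `b` (by height over `b`), `2` = junction (up), `3` = unconverted (top to bottom at `b`), `4` = junction (down),
`5` = converted reds whose edge from `b'` passes below `b`. -/
noncomputable def lB (a : ℕ → ℝ) (b b' : Star) (md : ℕ → ℕ) (x : ℕ) : ℕ :=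
  if b.p < a x then 0 else if md x = 0 then 3
  else if b.y < b'.f x b.p then (if md x = 1 then 2 else 1) else (if md x = 1 then 4 else 5)

noncomputable def lV (k : ℕ) (a : ℕ → ℝ) (b b' : Star) (md : ℕ → ℕ) (x : ℕ) : ℝ :=
  if b.p < a x then b.f x (tR k a b) else if md x = 0 then - b.f x (tL k a b)
  else if md x = 1 then 0 else b'.f x b.p

/-- a state of the left phase -/
noncomputable def stL (k : ℕ) (a : ℕ → ℝ) (b b' : Star) (md : ℕ → ℕ) : ℕ → ℤ :=
  mk (2 * k + 1) (lB a b b' md) (lV k a b b' md)

/-- `C_i`: the reds `≥ i` are converted -/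
def mdC (i : ℕ) (x : ℕ) : ℕ := if i ≤ x then 2 else 0
/-- `J_i`: the reds `> i` are converted, `i` is at the junction -/
def mdJ (i : ℕ) (x : ℕ) : ℕ := if i < x then 2 else if x = i then 1 else 0

/-- right phase (reds right of `b'`): blocks `0` = reds left of `b'` (bottom to top at `b'`), `1` = converted reds whose edge
from `b` passes above `b'`, `2` = junction (up), `3` = unconverted (top to bottom at `b'`), `4` = junction (down), `5` = converted
reds whose edge from `b` passes below `b'`. -/
noncomputable def rB (a : ℕ → ℝ) (b b' : Star) (md : ℕ → ℕ) (x : ℕ) : ℕ :=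
  if a x < b'.p then 0 else if md x = 0 then 3
  else if b'.y < b.f x b'.p then (if md x = 1 then 2 else 1) else (if md x = 1 then 4 else 5)

noncomputable def rV (k : ℕ) (a : ℕ → ℝ) (b b' : Star) (md : ℕ → ℕ) (x : ℕ) : ℝ :=
  if a x < b'.p then b'.f x (tL k a b') else if md x = 0 then - b'.f x (tR k a b')
  else if md x = 1 then 0 else b.f x b'.p

/-- a state of the right phase -/
noncomputable def stR (k : ℕ) (a : ℕ → ℝ) (b b' : Star) (md : ℕ → ℕ) : ℕ → ℤ :=
  mk (2 * k + 1) (rB a b b' md) (rV k a b b' md)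

/-- `C'_i`: the reds `< i` are converted -/
def mdC' (i : ℕ) (x : ℕ) : ℕ := if x < i then 2 else 0
/-- `J'_i`: the reds `< i` are converted, `i` is at the junction -/
def mdJ' (i : ℕ) (x : ℕ) : ℕ := if x < i then 2 else if x = i then 1 else 0

/-- order of the strands `b - x - b'` on the vertical line just right of `b` (bottom to top) -/
noncomputable def oP (k : ℕ) (a : ℕ → ℝ) (b b' : Star) : ℕ → ℤ :=
  mk (2 * k + 1) (fun x => if b.p < a x then 1 else if b.y < b'.f x b.p then 2 else 0)
    (fun x => if b.p < a x then b.f x (tR k a b) else b'.f x b.p)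

/-- order of the strands on the vertical line just left of `b'` (bottom to top) -/
noncomputable def oM (k : ℕ) (a : ℕ → ℝ) (b b' : Star) : ℕ → ℤ :=
  mk (2 * k + 1) (fun x => if a x < b'.p then 1 else if b'.y < b.f x b'.p then 2 else 0)
    (fun x => if a x < b'.p then b'.f x (tL k a b') else b.f x b'.p)

end Vale.Agent.P040.Mono81
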