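import Vale.Agent.P040.Mono81.Basic

/-!
# x-monotone Zarankiewicz: the left phase (rows L1 - L9)

States `stL md`.  List: `[reds right of b (0)] [converted, up (1)] [junction up (2)] [unconverted (3)] [junction down (4)]
[converted, down (5)]`.  See `notes/P040_monotone.md`, section 3.
-/

namespace Vale.Agent.P040.Mono81

open Finset Vale.Agent.P040.All Vale.Agent.P040.Lin

variable {k : ℕ} {a h : ℕ → ℝ} {b b' : Star}

/-- (L1) the order of a pair depends only on the modes of its two elements: unfold `stL`, `mk_lt_iff`, `lB`, `lV`; rewrite. -/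
lemma stL_pair_congr {md md' : ℕ → ℕ} {x y : ℕ} (hx : x < 2 * k + 1) (h1 : md x = md' x) (h2 : md y = md' y) :
    stL k a b b' md x < stL k a b b' md y ↔ stL k a b b' md' x < stL k a b b' md' y := by
  unfold stL
  rw [mk_lt_iff _ _ hx, mk_lt_iff _ _ hx]
  simp only [lB, lV, h1, h2]

/-- (L2) the mode of a red right of `b` is irrelevant. -/
lemma stL_pair_congr' {md md' : ℕ → ℕ} {x y : ℕ} (hx : x < 2 * k + 1) (h1 : md x = md' x ∨ b.p < a x)
    (h2 : md y = md' y ∨ b.p < a y) :
    stL k a b b' md x < stL k a b b' md y ↔ stL k a b b' md' x < stL k a b b' md' y := by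
  sorry

/-- (L3) step `C_{i+1} → J_i`, pair `(i, y)` with `i < y`: no change.  If `b.p < a y`: block `0` against a block `≥ 2`.  Otherwise `y` is
converted in both states (block `1` or `5`), `i` is in block `3` resp. `2`/`4`.  (`mk_lt_iff`, unfold everything, `split_ifs`, `omega`.) -/
lemma CJ_gt (G : Gen k a h b b') {i y : ℕ} (hiy : i < y) (hy : y < 2 * k + 1) (hL : a i < b.p) :
    stL k a b b' (mdC (i + 1)) i < stL k a b b' (mdC (i + 1)) y ↔
      stL k a b b' (mdJ i) i < stL k a b b' (mdJ i) y := by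
  have hi : i < 2 * k + 1 := lt_trans hiy hy
  have ni : ¬ b.p < a i := not_lt.2 hL.le
  have m1 : mdC (i + 1) i = 0 := by unfold mdC; rw [if_neg (by omega)]
  have m2 : mdC (i + 1) y = 2 := by unfold mdC; rw [if_pos (by omega)]
  have m3 : mdJ i i = 1 := by unfold mdJ; rw [if_neg (by omega), if_pos rfl]
  have m4 : mdJ i y = 2 := by unfold mdJ; rw [if_pos hiy]
  have B1 : lB a b b' (mdC (i + 1)) i = 3 := by unfold lB; rw [if_neg ni, m1, if_pos rfl]
  unfold stL
  rw [mk_lt_iff _ _ hi, mk_lt_iff _ _ hi, B1]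
  by_cases hyb : b.p < a y
  · have B2 : lB a b b' (mdC (i + 1)) y = 0 := by unfold lB; rw [if_pos hyb]
    have B4 : lB a b b' (mdJ i) y = 0 := by unfold lB; rw [if_pos hyb]
    have B3 : 2 ≤ lB a b b' (mdJ i) i := by
      unfold lB; rw [if_neg ni, m3, if_neg (by norm_num)]
      split_ifs <;> omega
    rw [B2, B4]
    constructor
    · rintro (h1 | ⟨h1, -⟩) <;> omega
    · rintro (h1 | ⟨h1, -⟩) <;> omega
  · by_cases uy : b.y < b'.f y b.p
    · have B2 : lB a b b' (mdC (i + 1)) y = 1 := by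
        unfold lB; rw [if_neg hyb, m2, if_neg (by norm_num), if_pos uy, if_neg (by norm_num)]
      have B4 : lB a b b' (mdJ i) y = 1 := by
        unfold lB; rw [if_neg hyb, m4, if_neg (by norm_num), if_pos uy, if_neg (by norm_num)]
      have B3 : 2 ≤ lB a b b' (mdJ i) i := by
        unfold lB; rw [if_neg ni, m3, if_neg (by norm_num)]
        split_ifs <;> omega
      rw [B2, B4]
      constructor
      · rintro (h1 | ⟨h1, -⟩) <;> omega
      · rintro (h1 | ⟨h1, -⟩) <;> omega
    · have B2 : lB a b b' (mdC (i + 1)) y = 5 := by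
        unfold lB; rw [if_neg hyb, m2, if_neg (by norm_num), if_neg uy, if_neg (by norm_num)]
      have B4 : lB a b b' (mdJ i) y = 5 := by
        unfold lB; rw [if_neg hyb, m4, if_neg (by norm_num), if_neg uy, if_neg (by norm_num)]
      have B3 : lB a b b' (mdJ i) i ≤ 4 := by
        unfold lB; rw [if_neg ni, m3, if_neg (by norm_num)]
        split_ifs <;> omega
      rw [B2, B4]
      constructor
      · intro _; exact Or.inl (by omega)
      · intro _; exact Or.inl (by omega)

/-- (L4) step `C_{i+1} → J_i`, pair `(x, i)` with `x < i`, `i` left of `b`.  In `C_{i+1}` both are in block `3`: `x` before `i` iff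
`b.f i tL < b.f x tL` (no tie: B11).  In `J_i`: `x` (block `3`) before `i` iff `i` is in block `4` iff `¬ b.y < b'.f i b.p`, i.e. (B12)
`b'.f i b.p < b.y`.  If the orders differ, `b.f x - b'.f i` changes sign on `[a i, b.p]`: at `a i` we have `b'.f i (a i) = h i = b.f i (a i)` and
`b.f x (a i) < b.f i (a i) ↔ b.f x tL < b.f i tL` (B10, or trivially if `tL = a i`; use B10 with `t = a i`, `t' = tL`, B6), at `b.p`: `b.f x b.p = b.y`.
Conclude with B14 (`u = a i`, `v = b.p`). -/
lemma CJ_lt (G : Gen k a h b b') {x i : ℕ} (hxi : x < i) (hi : i < 2 * k + 1) (hL : a i < b.p)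
    (hd : ¬ (stL k a b b' (mdC (i + 1)) x < stL k a b b' (mdC (i + 1)) i ↔
      stL k a b b' (mdJ i) x < stL k a b b' (mdJ i) i)) : Cr a b b' x i := by
  have hx : x < 2 * k + 1 := lt_trans hxi hi
  have hax : a x < a i := G.ha x i hxi hi
  have hxb : a x < b.p := lt_trans hax hL
  have hbb := G.hbb
  have nx : ¬ b.p < a x := not_lt.2 hxb.le
  have ni : ¬ b.p < a i := not_lt.2 hL.le
  have m1 : mdC (i + 1) x = 0 := by unfold mdC; rw [if_neg (by omega)]
  have m2 : mdC (i + 1) i = 0 := by unfold mdC; rw [if_neg (by omega)]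
  have m3 : mdJ i x = 0 := by unfold mdJ; rw [if_neg (by omega), if_neg (by omega)]
  have m4 : mdJ i i = 1 := by unfold mdJ; rw [if_neg (by omega), if_pos rfl]
  have B1 : lB a b b' (mdC (i + 1)) x = 3 := by unfold lB; rw [if_neg nx, m1, if_pos rfl]
  have B2 : lB a b b' (mdC (i + 1)) i = 3 := by unfold lB; rw [if_neg ni, m2, if_pos rfl]
  have B3 : lB a b b' (mdJ i) x = 3 := by unfold lB; rw [if_neg nx, m3, if_pos rfl]
  have V1 : lV k a b b' (mdC (i + 1)) x = - b.f x (tL k a b) := by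
    unfold lV; rw [if_neg nx, m1, if_pos rfl]
  have V2 : lV k a b b' (mdC (i + 1)) i = - b.f i (tL k a b) := by
    unfold lV; rw [if_neg ni, m2, if_pos rfl]
  obtain ⟨tx1, tx2⟩ := tL_mem G.sb hx hxb
  obtain ⟨ti1, ti2⟩ := tL_mem G.sb hi hL
  have hne : b.f x (tL k a b) ≠ b.f i (tL k a b) :=
    star_ne G.sb hx hi hxi.ne tx2.ne (Set.mem_uIcc.2 (Or.inr ⟨tx1, tx2.le⟩))
      (Set.mem_uIcc.2 (Or.inr ⟨ti1, ti2.le⟩))
  have hup := up_ne G hi hL
  have e1 : (stL k a b b' (mdC (i + 1)) x < stL k a b b' (mdC (i + 1)) i) ↔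
      b.f i (tL k a b) < b.f x (tL k a b) := by
    unfold stL
    rw [mk_lt_iff _ _ hx, B1, B2, V1, V2]
    constructor
    · rintro (h1 | ⟨-, h1 | ⟨h1, -⟩⟩)
      · exact absurd h1 (lt_irrefl _)
      · linarith
      · exact absurd (neg_injective h1) hne
    · intro h1
      exact Or.inr ⟨rfl, Or.inl (by linarith)⟩
  have e2 : (stL k a b b' (mdJ i) x < stL k a b b' (mdJ i) i) ↔ b'.f i b.p < b.y := by
    unfold stL
    rw [mk_lt_iff _ _ hx, B3]
    by_cases hu : b.y < b'.f i b.p
    · have B4 : lB a b b' (mdJ i) i = 2 := by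
        unfold lB; rw [if_neg ni, m4, if_neg (by norm_num), if_pos hu, if_pos rfl]
      rw [B4]
      constructor
      · rintro (h1 | ⟨h1, -⟩)
        · omega
        · omega
      · intro h1
        linarith
    · have B4 : lB a b b' (mdJ i) i = 4 := by
        unfold lB; rw [if_neg ni, m4, if_neg (by norm_num), if_neg hu, if_pos rfl]
      rw [B4]
      constructor
      · intro _
        exact lt_of_le_of_ne (not_lt.1 hu) hup
      · intro _
        exact Or.inl (by norm_num)
  rw [e1, e2] at hd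
  have hu1 : a i ∈ Set.uIcc b.p (a x) := Set.mem_uIcc.2 (Or.inr ⟨hax.le, hL.le⟩)
  have hv1 : b.p ∈ Set.uIcc b.p (a x) := Set.left_mem_uIcc
  have hu2 : a i ∈ Set.uIcc b'.p (a i) := Set.right_mem_uIcc
  have hv2 : b.p ∈ Set.uIcc b'.p (a i) := Set.mem_uIcc.2 (Or.inr ⟨hL.le, hbb.le⟩)
  have r1 : b.f i (a i) = b'.f i (a i) := by rw [G.sb.red i hi, G.sb'.red i hi]
  have r2 : b.f x b.p = b.y := G.sb.blue x hx
  by_cases hP : b.f i (tL k a b) < b.f x (tL k a b)
  · have hQ : ¬ b'.f i b.p < b.y := fun hq => hd ⟨fun _ => hq, fun _ => hP⟩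
    have hQ' : b.y < b'.f i b.p := lt_of_le_of_ne (not_lt.1 hQ) hup.symm
    have s1 := (star_left G.sb hi hx hxi.ne' hL le_rfl hax.le ti2 ti1 tx1).2 hP
    refine cr_of_sign G hx hi hL.le hu1 hv1 hu2 hv2 (Or.inr ⟨?_, ?_⟩)
    · rw [← r1]; exact s1
    · rw [r2]; exact hQ'
  · have hP' : b.f x (tL k a b) < b.f i (tL k a b) := lt_of_le_of_ne (not_lt.1 hP) hne
    have hQ : b'.f i b.p < b.y := by
      by_contra hq
      exact hd ⟨fun h1 => absurd h1 hP, fun h1 => absurd h1 hq⟩
    have s1 := (star_left G.sb hx hi hxi.ne hL hax.le le_rfl ti2 tx1 ti1).2 hP'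
    refine cr_of_sign G hx hi hL.le hu1 hv1 hu2 hv2 (Or.inl ⟨?_, ?_⟩)
    · rw [← r1]; exact s1
    · rw [r2]; exact hQ

/-- (L5) discordant pairs of the step `C_{i+1} → J_i`.  `mdC (i+1) z = mdJ i z` for `z ≠ i`, so (L2) one of `q.1, q.2` is `i` and `a i < b.p`;
`q.1 = i` is excluded by L3; L4. -/
lemma disc_CJ (G : Gen k a h b b') {i : ℕ} {q : ℕ × ℕ}
    (hq : q ∈ Disc (2 * k + 1) (stL k a b b' (mdC (i + 1))) (stL k a b b' (mdJ i))) :
    q.2 = i ∧ a i < b.p ∧ Cr a b b' q.1 i := by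
  simp only [Disc, mem_filter, mem_product, mem_range] at hq
  obtain ⟨⟨h1, h2⟩, h12, hd⟩ := hq
  have hm : ∀ z, z ≠ i → mdC (i + 1) z = mdJ i z := by
    intro z hz
    unfold mdC mdJ
    by_cases hz1 : i < z
    · rw [if_pos (by omega), if_pos hz1]
    · rw [if_neg (by omega), if_neg hz1, if_neg hz]
  by_cases hL : a i < b.p
  · by_cases e1 : q.1 = i
    · exfalso
      apply hd
      have := CJ_gt G (i := i) (y := q.2) (by omega) h2 hL
      rw [e1]
      exact this
    · by_cases e2 : q.2 = i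
      · refine ⟨e2, hL, ?_⟩
        rw [e2] at hd h12 h2
        exact CJ_lt G h12 h2 hL hd
      · exfalso
        exact hd (stL_pair_congr' h1 (Or.inl (hm _ e1)) (Or.inl (hm _ e2)))
  · exfalso
    -- `i` is not left of `b`
    have key : ∀ z, z < 2 * k + 1 → (mdC (i + 1) z = mdJ i z ∨ b.p < a z) := by
      intro z hz
      by_cases e : z = i
      · right
        subst e
        exact lt_of_le_of_ne (not_lt.1 hL) (G.sb.ne z hz).symm
      · exact Or.inl (hm z e)
    exact hd (stL_pair_congr' h1 (key _ h1) (key _ h2))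

/-- (L6) step `J_i → C_i`, pair `(x, i)` with `x < i`: no change (`x` in block `3`, `i` in `2 → 1` or `4 → 5`; if `b.p < a i` nothing changes). -/
lemma JC_lt (G : Gen k a h b b') {x i : ℕ} (hxi : x < i) (hi : i < 2 * k + 1) :
    stL k a b b' (mdJ i) x < stL k a b b' (mdJ i) i ↔ stL k a b b' (mdC i) x < stL k a b b' (mdC i) i := by
  sorry

/-- (L7) step `J_i → C_i`, pair `(i, y)`, `i < y`, `y` left of `b` (so `i` too).  `y` is converted in both states.  In `J_i`: `i` before `y` iff `y` is down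
(block `5`).  In `C_i`: `i` before `y` iff (`i` up, `y` down) or (same block and `b'.f i b.p < b'.f y b.p`).  The orders differ only if both are up and
`b'.f i b.p < b'.f y b.p`, or both are down and `b'.f y b.p < b'.f i b.p`.  Then `b.f y - b'.f i` changes sign on `[a y, b.p]`: at `b.p` it is `b.y - b'.f i b.p`; at `a y`:
`b.f y (a y) = h y = b'.f y (a y)` and `b'.f y (a y) < b'.f i (a y) ↔ b'.f y b.p < b'.f i b.p` (B10 for the star `b'`, `t = a y`, `t' = b.p`).  B14 (`u = a y`, `v = b.p`). -/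
lemma JC_gt (G : Gen k a h b b') {i y : ℕ} (hiy : i < y) (hy : y < 2 * k + 1) (hL : a y < b.p)
    (hd : ¬ (stL k a b b' (mdJ i) i < stL k a b b' (mdJ i) y ↔
      stL k a b b' (mdC i) i < stL k a b b' (mdC i) y)) : Cr a b b' y i := by
  have hi : i < 2 * k + 1 := lt_trans hiy hy
  have hay : a i < a y := G.ha i y hiy hy
  have hib : a i < b.p := lt_trans hay hL
  have hbb := G.hbb
  have ni : ¬ b.p < a i := not_lt.2 hib.le
  have ny : ¬ b.p < a y := not_lt.2 hL.le
  have m1 : mdJ i i = 1 := by unfold mdJ; rw [if_neg (by omega), if_pos rfl]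
  have m2 : mdJ i y = 2 := by unfold mdJ; rw [if_pos hiy]
  have m3 : mdC i i = 2 := by unfold mdC; rw [if_pos le_rfl]
  have m4 : mdC i y = 2 := by unfold mdC; rw [if_pos hiy.le]
  have V3 : lV k a b b' (mdC i) i = b'.f i b.p := by
    unfold lV; rw [if_neg ni, m3, if_neg (by norm_num), if_neg (by norm_num)]
  have V4 : lV k a b b' (mdC i) y = b'.f y b.p := by
    unfold lV; rw [if_neg ny, m4, if_neg (by norm_num), if_neg (by norm_num)]
  have hupi := up_ne G hi hib
  have hupy := up_ne G hy hL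
  have hne : b'.f i b.p ≠ b'.f y b.p :=
    star_ne G.sb' hi hy hiy.ne hbb.ne (Set.mem_uIcc.2 (Or.inr ⟨hib.le, hbb.le⟩))
      (Set.mem_uIcc.2 (Or.inr ⟨hL.le, hbb.le⟩))
  have hu1 : a y ∈ Set.uIcc b.p (a y) := Set.right_mem_uIcc
  have hv1 : b.p ∈ Set.uIcc b.p (a y) := Set.left_mem_uIcc
  have hu2 : a y ∈ Set.uIcc b'.p (a i) := Set.mem_uIcc.2 (Or.inr ⟨hay.le, (lt_trans hL hbb).le⟩)
  have hv2 : b.p ∈ Set.uIcc b'.p (a i) := Set.mem_uIcc.2 (Or.inr ⟨hib.le, hbb.le⟩)
  have r1 : b.f y (a y) = b'.f y (a y) := by rw [G.sb.red y hy, G.sb'.red y hy]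
  have r2 : b.f y b.p = b.y := G.sb.blue y hy
  unfold stL at hd
  rw [mk_lt_iff _ _ hi, mk_lt_iff _ _ hi, V3, V4] at hd
  by_cases ui : b.y < b'.f i b.p <;> by_cases uy : b.y < b'.f y b.p
  · have B1 : lB a b b' (mdJ i) i = 2 := by
      unfold lB; rw [if_neg ni, m1, if_neg (by norm_num), if_pos ui, if_pos rfl]
    have B2 : lB a b b' (mdJ i) y = 1 := by
      unfold lB; rw [if_neg ny, m2, if_neg (by norm_num), if_pos uy, if_neg (by norm_num)]
    have B3 : lB a b b' (mdC i) i = 1 := by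
      unfold lB; rw [if_neg ni, m3, if_neg (by norm_num), if_pos ui, if_neg (by norm_num)]
    have B4 : lB a b b' (mdC i) y = 1 := by
      unfold lB; rw [if_neg ny, m4, if_neg (by norm_num), if_pos uy, if_neg (by norm_num)]
    rw [B1, B2, B3, B4] at hd
    have hlt : b'.f i b.p < b'.f y b.p := by
      by_contra hc
      apply hd
      constructor
      · rintro (h1 | ⟨h1, -⟩)
        · omega
        · omega
      · rintro (h1 | ⟨-, h1 | ⟨h1, -⟩⟩)
        · omega
        · exact absurd h1 hc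
        · exact absurd h1 hne
    have s1 := (star_left G.sb' hi hy hiy.ne (lt_trans hL hbb) hay.le le_rfl hbb hib.le hL.le).2 hlt
    refine cr_of_sign G hy hi hL.le hu1 hv1 hu2 hv2 (Or.inr ⟨?_, ?_⟩)
    · rw [r1]; exact s1
    · rw [r2]; exact ui
  · exfalso
    have B1 : lB a b b' (mdJ i) i = 2 := by
      unfold lB; rw [if_neg ni, m1, if_neg (by norm_num), if_pos ui, if_pos rfl]
    have B2 : lB a b b' (mdJ i) y = 5 := by
      unfold lB; rw [if_neg ny, m2, if_neg (by norm_num), if_neg uy, if_neg (by norm_num)]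
    have B3 : lB a b b' (mdC i) i = 1 := by
      unfold lB; rw [if_neg ni, m3, if_neg (by norm_num), if_pos ui, if_neg (by norm_num)]
    have B4 : lB a b b' (mdC i) y = 5 := by
      unfold lB; rw [if_neg ny, m4, if_neg (by norm_num), if_neg uy, if_neg (by norm_num)]
    rw [B1, B2, B3, B4] at hd
    exact hd ⟨fun _ => Or.inl (by norm_num), fun _ => Or.inl (by norm_num)⟩
  · exfalso
    have B1 : lB a b b' (mdJ i) i = 4 := by
      unfold lB; rw [if_neg ni, m1, if_neg (by norm_num), if_neg ui, if_pos rfl]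
    have B2 : lB a b b' (mdJ i) y = 1 := by
      unfold lB; rw [if_neg ny, m2, if_neg (by norm_num), if_pos uy, if_neg (by norm_num)]
    have B3 : lB a b b' (mdC i) i = 5 := by
      unfold lB; rw [if_neg ni, m3, if_neg (by norm_num), if_neg ui, if_neg (by norm_num)]
    have B4 : lB a b b' (mdC i) y = 1 := by
      unfold lB; rw [if_neg ny, m4, if_neg (by norm_num), if_pos uy, if_neg (by norm_num)]
    rw [B1, B2, B3, B4] at hd
    apply hd
    constructor
    · rintro (h1 | ⟨h1, -⟩)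
      · omega
      · omega
    · rintro (h1 | ⟨h1, -⟩)
      · omega
      · omega
  · have B1 : lB a b b' (mdJ i) i = 4 := by
      unfold lB; rw [if_neg ni, m1, if_neg (by norm_num), if_neg ui, if_pos rfl]
    have B2 : lB a b b' (mdJ i) y = 5 := by
      unfold lB; rw [if_neg ny, m2, if_neg (by norm_num), if_neg uy, if_neg (by norm_num)]
    have B3 : lB a b b' (mdC i) i = 5 := by
      unfold lB; rw [if_neg ni, m3, if_neg (by norm_num), if_neg ui, if_neg (by norm_num)]
    have B4 : lB a b b' (mdC i) y = 5 := by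
      unfold lB; rw [if_neg ny, m4, if_neg (by norm_num), if_neg uy, if_neg (by norm_num)]
    rw [B1, B2, B3, B4] at hd
    have hlt : b'.f y b.p < b'.f i b.p := by
      by_contra hc
      have hc' : b'.f i b.p < b'.f y b.p := lt_of_le_of_ne (not_lt.1 hc) hne
      exact hd ⟨fun _ => Or.inr ⟨rfl, Or.inl hc'⟩, fun _ => Or.inl (by norm_num)⟩
    have s1 := (star_left G.sb' hy hi hiy.ne' (lt_trans hL hbb) le_rfl hay.le hbb hL.le hib.le).2 hlt
    have ui' : b'.f i b.p < b.y := lt_of_le_of_ne (not_lt.1 ui) hupi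
    refine cr_of_sign G hy hi hL.le hu1 hv1 hu2 hv2 (Or.inl ⟨?_, ?_⟩)
    · rw [r1]; exact s1
    · rw [r2]; exact ui'

/-- (L8) discordant pairs of the step `J_i → C_i`: `mdJ i z = mdC i z` for `z ≠ i`; L2, L6, L7. -/
lemma disc_JC (G : Gen k a h b b') {i : ℕ} {q : ℕ × ℕ}
    (hq : q ∈ Disc (2 * k + 1) (stL k a b b' (mdJ i)) (stL k a b b' (mdC i))) :
    q.1 = i ∧ a q.2 < b.p ∧ Cr a b b' q.2 i := by
  sorry

/-- (L9) the row `i` is extreme in `J_i`.  If `b.y < b'.f i b.p` (`i` in block `2`): `Blk _ κ i (· < i)` (the reds `< i` are left of `b` by `G.ha` and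
unconverted: block `3`; a red `z > i` after `i` is in block `5`).  Otherwise `i` is in block `4`: `Blk _ (-κ) i (· < i)` (a red `z > i` before `i` is in block `0` or `1`).
`NN_extreme (inj_mk ..)`. -/
lemma NN_JL (G : Gen k a h b b') {i : ℕ} (hi : i < 2 * k + 1) (hL : a i < b.p) :
    NN k (stL k a b b' (mdJ i)) i = k - i ∨ NN k (stL k a b b' (mdJ i)) i = min k (2 * k - i) := by
  sorry

end Vale.Agent.P040.Mono81
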