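import Vale.Agent.P040.Mono81.Basic

/-!
# x-monotone Zarankiewicz: the right phase (rows R1 - R9), mirror image of the left phase

States `stR md`.  List: `[reds left of b' (0)] [converted, up (1)] [junction up (2)] [unconverted (3)] [junction down (4)]
[converted, down (5)]`.  See `notes/P040_monotone.md`, section 5.
-/

namespace Vale.Agent.P040.Mono81

open Finset Vale.Agent.P040.All Vale.Agent.P040.Lin

variable {k : ℕ} {a h : ℕ → ℝ} {b b' : Star}

/-- (R2) the order of a pair depends only on the modes of its two elements; the mode of a red left of `b'` is irrelevant.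
Unfold `stR`, `mk_lt_iff`, `rB`, `rV`. -/
lemma stR_pair_congr' {md md' : ℕ → ℕ} {x y : ℕ} (hx : x < 2 * k + 1) (h1 : md x = md' x ∨ a x < b'.p)
    (h2 : md y = md' y ∨ a y < b'.p) :
    stR k a b b' md x < stR k a b b' md y ↔ stR k a b b' md' x < stR k a b b' md' y := by
  sorry

/-- (R3) step `C'_i → J'_i`, pair `(x, i)` with `x < i`: no change (`x` is in block `0`, `1` or `5`; `i` in `3` resp. `2`/`4`). -/
lemma CJ'_lt (G : Gen k a h b b') {x i : ℕ} (hxi : x < i) (hi : i < 2 * k + 1) (hR : b'.p < a i) :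
    stR k a b b' (mdC' i) x < stR k a b b' (mdC' i) i ↔ stR k a b b' (mdJ' i) x < stR k a b b' (mdJ' i) i := by
  sorry

/-- (R4) step `C'_i → J'_i`, pair `(i, y)`, `i < y`, `i` right of `b'` (so `y` too).  In `C'_i` both are in block `3`: `i` before `y` iff
`b'.f y tR < b'.f i tR`.  In `J'_i`: `i` before `y` iff `i` is in block `2` iff `b'.y < b.f i b'.p`.  If the orders differ, `b.f i - b'.f y` changes sign on `[b'.p, a i]`:
at `b'.p`: `b.f i b'.p` against `b'.f y b'.p = b'.y` (B13); at `a i`: `b.f i (a i) = h i = b'.f i (a i)` and `b'.f i (a i) < b'.f y (a i) ↔ b'.f i tR < b'.f y tR` (B9, B5).  B14. -/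
lemma CJ'_gt (G : Gen k a h b b') {i y : ℕ} (hiy : i < y) (hy : y < 2 * k + 1) (hR : b'.p < a i)
    (hd : ¬ (stR k a b b' (mdC' i) i < stR k a b b' (mdC' i) y ↔
      stR k a b b' (mdJ' i) i < stR k a b b' (mdJ' i) y)) : Cr a b b' i y := by
  sorry

/-- (R5) discordant pairs of the step `C'_i → J'_i`: `mdC' i z = mdJ' i z` for `z ≠ i`; R2, R3, R4. -/
lemma disc_CJ' (G : Gen k a h b b') {i : ℕ} {q : ℕ × ℕ}
    (hq : q ∈ Disc (2 * k + 1) (stR k a b b' (mdC' i)) (stR k a b b' (mdJ' i))) :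
    q.1 = i ∧ b'.p < a i ∧ Cr a b b' i q.2 := by
  obtain ⟨x, y⟩ := q
  simp only [Disc, mem_filter, mem_product, mem_range] at hq
  obtain ⟨⟨hx, hy⟩, hxy, hd⟩ := hq
  have hmd : ∀ z, z ≠ i → mdC' i z = mdJ' i z := by
    intro z hz
    simp [mdC', mdJ', hz]
  have hside : ∀ z < 2 * k + 1, ¬ b'.p < a z → a z < b'.p := by
    intro z hz hn
    exact lt_of_le_of_ne (not_lt.mp hn) (G.sb'.ne z hz)
  by_cases hxi : x = i
  · subst hxi
    have hyi : y ≠ x := by omega
    by_cases hR : b'.p < a x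
    · exact ⟨rfl, hR, CJ'_gt G hxy hy hR hd⟩
    · exact absurd (stR_pair_congr' hx (Or.inr (hside x hx hR)) (Or.inl (hmd y hyi))) hd
  · by_cases hyi : y = i
    · subst hyi
      by_cases hR : b'.p < a y
      · exact absurd (CJ'_lt G hxy hy hR) hd
      · exact absurd (stR_pair_congr' hx (Or.inl (hmd x hxi)) (Or.inr (hside y hy hR))) hd
    · exact absurd (stR_pair_congr' hx (Or.inl (hmd x hxi)) (Or.inl (hmd y hyi))) hd

/-- (R6) step `J'_i → C'_{i+1}`, pair `(i, y)` with `i < y`: no change (`y` is unconverted, block `3`, or nothing changes if `a i < b'.p`). -/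
lemma JC'_gt (G : Gen k a h b b') {i y : ℕ} (hiy : i < y) (hy : y < 2 * k + 1) :
    stR k a b b' (mdJ' i) i < stR k a b b' (mdJ' i) y ↔
      stR k a b b' (mdC' (i + 1)) i < stR k a b b' (mdC' (i + 1)) y := by
  sorry

/-- (R7) step `J'_i → C'_{i+1}`, pair `(x, i)`, `x < i`, `x` right of `b'` (so `i` too).  `x` is converted in both states.  In `J'_i`: `x` before `i` iff `x` is up
(block `1`).  In `C'_{i+1}`: `x` before `i` iff (`x` up, `i` down) or (same block and `b.f x b'.p < b.f i b'.p`).  The orders differ only if both are up and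
`b.f i b'.p < b.f x b'.p`, or both are down and `b.f x b'.p < b.f i b'.p`.  Then `b.f i - b'.f x` changes sign on `[b'.p, a x]`: at `b'.p` it is `b.f i b'.p - b'.y`; at `a x`:
`b'.f x (a x) = h x = b.f x (a x)` and `b.f i (a x) < b.f x (a x) ↔ b.f i b'.p < b.f x b'.p` (B9 for the star `b`, `t = a x`, `t' = b'.p`).  B14 (`u = b'.p`, `v = a x`). -/
lemma JC'_lt (G : Gen k a h b b') {x i : ℕ} (hxi : x < i) (hi : i < 2 * k + 1) (hR : b'.p < a x)
    (hd : ¬ (stR k a b b' (mdJ' i) x < stR k a b b' (mdJ' i) i ↔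
      stR k a b b' (mdC' (i + 1)) x < stR k a b b' (mdC' (i + 1)) i)) : Cr a b b' i x := by
  sorry

/-- (R8) discordant pairs of the step `J'_i → C'_{i+1}`: `mdJ' i z = mdC' (i+1) z` for `z ≠ i`; R2, R6, R7. -/
lemma disc_JC' (G : Gen k a h b b') {i : ℕ} {q : ℕ × ℕ}
    (hq : q ∈ Disc (2 * k + 1) (stR k a b b' (mdJ' i)) (stR k a b b' (mdC' (i + 1)))) :
    q.2 = i ∧ b'.p < a q.1 ∧ Cr a b b' i q.1 := by
  sorry

/-- (R9) the row `i` is extreme in `J'_i`.  If `b'.y < b.f i b'.p` (`i` in block `2`): `Blk _ κ i (i < ·)` (the reds `> i` are right of `b'` and unconverted: block `3`;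
a red `z < i` after `i` is in block `5`).  Otherwise `i` is in block `4`: `Blk _ (-κ) i (i < ·)`.  `NN_extreme (inj_mk ..)`. -/
lemma NN_JR (G : Gen k a h b b') {i : ℕ} (hi : i < 2 * k + 1) (hR : b'.p < a i) :
    NN k (stR k a b b' (mdJ' i)) i = k - i ∨ NN k (stR k a b b' (mdJ' i)) i = min k (2 * k - i) := by
  sorry

end Vale.Agent.P040.Mono81
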